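import Vale.Agent.P078.Local.Def.Avg

/-!
# Averages over coins: splitting one coin, stopped supermartingales, exponential steps
-/

noncomputable section

namespace Vale.Agent.P078.Local

open Finset

variable {α : Type*} [Fintype α]

theorem avg_mono {f g : α → ℝ} (h : ∀ a, f a ≤ g a) : avg f ≤ avg g :=
  div_le_div_of_nonneg_right (sum_le_sum fun a _ => h a) (Nat.cast_nonneg _)

theorem avg_add (f g : α → ℝ) : avg (fun a => f a + g a) = avg f + avg g := by
  simp only [avg, sum_add_distrib, add_div]

theorem avg_mul_const (f : α → ℝ) (c : ℝ) : avg (fun a => f a * c) = avg f * c := by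
  simp only [avg, ← sum_mul, div_mul_eq_mul_div]

theorem avg_const_mul (c : ℝ) (f : α → ℝ) : avg (fun a => c * f a) = c * avg f := by
  simp only [avg, ← mul_sum, mul_div_assoc]

theorem avg_const [Nonempty α] (c : ℝ) : avg (fun _ : α => c) = c := by
  have h : (Fintype.card α : ℝ) ≠ 0 := by exact_mod_cast Fintype.card_ne_zero
  simp only [avg, sum_const, card_univ, nsmul_eq_mul]
  field_simp

theorem avg_nonneg {f : α → ℝ} (h : ∀ a, 0 ≤ f a) : 0 ≤ avg f :=
  div_nonneg (sum_nonneg fun a _ => h a) (Nat.cast_nonneg _)

theorem avg_sum {β : Type*} (s : Finset β) (f : β → α → ℝ) :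
    avg (fun a => ∑ i ∈ s, f i a) = ∑ i ∈ s, avg (f i) := by
  simp only [avg]
  rw [sum_comm, sum_div]

open Classical in
theorem prob_mono {p q : α → Prop} (h : ∀ a, p a → q a) : prob p ≤ prob q :=
  avg_mono fun a => by
    by_cases hp : p a
    · simp [hp, h a hp]
    · simp only [hp, if_false]; split_ifs <;> norm_num

open Classical in
theorem prob_nonneg (p : α → Prop) : 0 ≤ prob p := avg_nonneg fun a => by split_ifs <;> norm_num

open Classical in
theorem prob_le_one (p : α → Prop) : prob p ≤ 1 := by
  rcases isEmpty_or_nonempty α with h | h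
  · simp [prob, avg]
  · exact (avg_mono fun a => by split_ifs <;> norm_num).trans_eq (avg_const 1)

open Classical in
theorem prob_or_le (p q : α → Prop) : prob (fun a => p a ∨ q a) ≤ prob p + prob q := by
  rw [prob, prob, prob, ← avg_add]
  exact avg_mono fun a => by by_cases hp : p a <;> by_cases hq : q a <;> simp [hp, hq]

open Classical in
theorem prob_exists_le {β : Type*} (s : Finset β) (p : β → α → Prop) :
    prob (fun a => ∃ i ∈ s, p i a) ≤ ∑ i ∈ s, prob (p i) := by
  simp only [prob]
  rw [← avg_sum]
  refine avg_mono fun a => ?_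
  split_ifs with h
  · obtain ⟨i, hi, hp⟩ := h
    refine le_trans (le_of_eq ?_) (single_le_sum (f := fun j => if p j a then (1 : ℝ) else 0)
      (fun j _ => by split_ifs <;> norm_num) hi)
    simp [hp]
  · exact sum_nonneg fun j _ => by split_ifs <;> norm_num

/-- Probability over a product, the first coordinate fixed. -/
theorem prob_prod {β : Type*} [Fintype β] (p : α × β → Prop) :
    prob p = avg fun a => prob fun b => p (a, b) := by
  simp only [prob, avg, Fintype.sum_prod_type, Fintype.card_prod, Nat.cast_mul, ← sum_div, div_div,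
    mul_comm (Fintype.card α : ℝ)]

section coins

variable {κ : Type*} [Fintype κ] [DecidableEq κ]

/-- Splitting the coin of `k`. -/
theorem avg_split (k : κ) (f : (κ → Bool) → ℝ) :
    avg f = avg fun σ => (f (Function.update σ k true) + f (Function.update σ k false)) / 2 := by
  let e : Equiv.Perm (κ → Bool) :=
    { toFun := fun σ => Function.update σ k (!σ k)
      invFun := fun σ => Function.update σ k (!σ k)
      left_inv := fun σ => by simp
      right_inv := fun σ => by simp }
  have he : ∑ σ, f (e σ) = ∑ σ, f σ := Equiv.sum_comp e f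
  have hpt : ∀ σ, f σ + f (e σ) =
      f (Function.update σ k true) + f (Function.update σ k false) := fun σ => by
    have h1 : σ = Function.update σ k (σ k) := (Function.update_eq_self k σ).symm
    show f σ + f (Function.update σ k (!σ k)) = _
    cases hb : σ k
    · rw [hb] at h1; rw [Bool.not_false, ← h1, add_comm]
    · rw [hb] at h1; rw [Bool.not_true, ← h1]
  simp only [avg]
  congr 1
  rw [← sum_div, eq_div_iff (two_ne_zero), ← sum_congr rfl fun σ _ => hpt σ, sum_add_distrib, he]
  ring

omit [Fintype κ] [DecidableEq κ] in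
/-- A fold does not see the coins outside its list. -/
theorem foldl_congr_coins {S : Type*} (step : S → κ → Bool → S) {σ τ : κ → Bool} :
    ∀ (l : List κ) (s : S), (∀ k ∈ l, σ k = τ k) →
      l.foldl (fun s k => step s k (σ k)) s = l.foldl (fun s k => step s k (τ k)) s
  | [], _, _ => rfl
  | a :: l, s, h => by
    rw [List.foldl_cons, List.foldl_cons, h a (List.mem_cons_self ..)]
    exact foldl_congr_coins step l _ fun k hk => h k (List.mem_cons_of_mem _ hk)

open Classical in
/-- A stopped supermartingale along a fold of coins, with an invariant and a potential that see the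
slots still to come. -/
theorem super_inv {S : Type*} (step : S → κ → Bool → S) (Φ : List κ → S → ℝ) (bad : S → Prop)
    (Inv : List κ → S → Prop) (c : ℝ) (h0 : ∀ r s, 0 ≤ Φ r s) (hb : ∀ r s, bad s → c ≤ Φ r s)
    (hstep : ∀ k r s, Inv (k :: r) s → ¬ bad s → (∀ b, Inv r (step s k b)) ∧
      Φ r (step s k true) + Φ r (step s k false) ≤ 2 * Φ (k :: r) s) :
    ∀ (l : List κ) (s0 : S), l.Nodup → Inv l s0 →
      c * prob (fun σ : κ → Bool =>
        ∃ j, bad ((l.take j).foldl (fun s k => step s k (σ k)) s0)) ≤ Φ l s0 := by
  intro l
  induction l with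
  | nil =>
    intro s0 _ _
    by_cases hs : bad s0
    · simp only [List.take_nil, List.foldl_nil, hs, exists_const, prob, if_true]
      rw [avg_const]
      simpa using hb [] s0 hs
    · simp only [List.take_nil, List.foldl_nil, hs, exists_const, prob, if_false]
      rw [avg_const, mul_zero]
      exact h0 [] s0
  | cons a l ih =>
    intro s0 hnd hi
    obtain ⟨hal, hnd'⟩ := List.nodup_cons.1 hnd
    by_cases hs : bad s0
    · have hP : prob (fun σ : κ → Bool =>
          ∃ j, bad (((a :: l).take j).foldl (fun s k => step s k (σ k)) s0)) = 1 := by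
        rw [prob]
        refine Eq.trans ?_ (avg_const (α := κ → Bool) 1)
        congr 1
        funext σ
        rw [if_pos ⟨0, by simpa using hs⟩]
      rw [hP, mul_one]
      exact hb _ s0 hs
    · have hev : ∀ σ : κ → Bool,
          (∃ j, bad (((a :: l).take j).foldl (fun s k => step s k (σ k)) s0)) ↔
            ∃ j, bad ((l.take j).foldl (fun s k => step s k (σ k)) (step s0 a (σ a))) := by
        intro σ
        constructor
        · rintro ⟨j, hj⟩
          rcases j with _ | j
          · exact absurd (by simpa using hj) hs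
          · exact ⟨j, by simpa using hj⟩
        · rintro ⟨j, hj⟩
          exact ⟨j + 1, by simpa using hj⟩
      have hind : ∀ (b v : Bool) (σ : κ → Bool),
          (∃ j, bad ((l.take j).foldl (fun s k => step s k (Function.update σ a v k))
              (step s0 a b))) ↔
            ∃ j, bad ((l.take j).foldl (fun s k => step s k (σ k)) (step s0 a b)) := by
        intro b v σ
        refine exists_congr fun j => ?_
        rw [foldl_congr_coins step (l.take j) _ fun k hk =>
          Function.update_of_ne (fun e : k = a => hal (e ▸ List.mem_of_mem_take hk)) v σ]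
      have hkey : prob (fun σ : κ → Bool =>
          ∃ j, bad (((a :: l).take j).foldl (fun s k => step s k (σ k)) s0))
          = (prob (fun σ : κ → Bool =>
                ∃ j, bad ((l.take j).foldl (fun s k => step s k (σ k)) (step s0 a true)))
            + prob (fun σ : κ → Bool =>
                ∃ j, bad ((l.take j).foldl (fun s k => step s k (σ k)) (step s0 a false)))) / 2 := by
        simp only [prob]
        rw [avg_split a, ← avg_add, div_eq_mul_inv, ← avg_mul_const]
        congr 1
        funext σ
        simp only [hev, Function.update_self, hind]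
        ring
      rw [hkey]
      obtain ⟨hn, hle⟩ := hstep a l s0 hi hs
      have ht := ih (step s0 a true) hnd' (hn true)
      have hf := ih (step s0 a false) hnd' (hn false)
      linarith

/-- A stopped supermartingale along a fold of coins (`StmtSuper`). -/
theorem superStmt {S : Type*} (step : S → κ → Bool → S) (Φ : S → ℝ) (bad : S → Prop) (c : ℝ)
    (l : List κ) (s0 : S) (hnd : l.Nodup) (h0 : ∀ s, 0 ≤ Φ s) (hb : ∀ s, bad s → c ≤ Φ s)
    (hstep : ∀ s k, k ∈ l → ¬ bad s → Φ (step s k true) + Φ (step s k false) ≤ 2 * Φ s) :
    c * prob (fun σ : κ → Bool =>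
      ∃ j, bad ((l.take j).foldl (fun s k => step s k (σ k)) s0)) ≤ Φ s0 :=
  super_inv step (fun _ => Φ) bad (fun r _ => ∀ k ∈ r, k ∈ l) c (fun _ => h0) (fun _ => hb)
    (fun k r s hi hs => ⟨fun _ x hx => hi x (List.mem_cons_of_mem _ hx),
      hstep s k (hi k List.mem_cons_self) hs⟩) l s0 hnd fun _ h => h

/-- One Rademacher step of an exponential potential. -/
theorem exp_coin_step {G L Q lam : ℝ} {g : Bool → ℝ} (hlam : 0 ≤ lam)
    (hg : ∀ b, g b ≤ G + coin b * L + Q) :
    Real.exp (lam * g true) + Real.exp (lam * g false)
      ≤ 2 * Real.exp (lam * G + lam * Q + lam ^ 2 * L ^ 2 / 2) := by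
  have h := Real.cosh_le_exp_half_sq (lam * L)
  rw [Real.cosh_eq] at h
  have h1 := hg true
  have h2 := hg false
  simp only [coin, if_true, Bool.false_eq_true, if_false] at h1 h2
  have e1 : Real.exp (lam * g true) ≤ Real.exp (lam * G + lam * Q) * Real.exp (lam * L) := by
    rw [← Real.exp_add]; exact Real.exp_le_exp.2 (by nlinarith [mul_le_mul_of_nonneg_left h1 hlam])
  have e2 : Real.exp (lam * g false) ≤ Real.exp (lam * G + lam * Q) * Real.exp (-(lam * L)) := by
    rw [← Real.exp_add]; exact Real.exp_le_exp.2 (by nlinarith [mul_le_mul_of_nonneg_left h2 hlam])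
  have h3 := mul_le_mul_of_nonneg_left h (Real.exp_pos (lam * G + lam * Q)).le
  rw [Real.exp_add (lam * G + lam * Q), show lam ^ 2 * L ^ 2 / 2 = (lam * L) ^ 2 / 2 by ring]
  linarith

end coins

end Vale.Agent.P078.Local
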