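import Vale.Agent.P078.Local.Flip.Super

/-!
# Resampling blocks of coins: conditional products and Cauchy-Schwarz
-/

noncomputable section

namespace Vale.Agent.P078.Local

open Finset

variable {α : Type*} [Fintype α] {κ : Type*} [Fintype κ] [DecidableEq κ]

/-- Resampling the coins of `B`. -/
theorem avg_resample (B : Finset κ) (f : (κ → Bool) → ℝ) :
    avg f = avg fun σ => avg fun τ => f (B.piecewise τ σ) := by
  let e : Equiv.Perm ((κ → Bool) × (κ → Bool)) :=
    { toFun := fun u => (B.piecewise u.2 u.1, B.piecewise u.1 u.2)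
      invFun := fun u => (B.piecewise u.2 u.1, B.piecewise u.1 u.2)
      left_inv := fun u => by
        ext k <;> by_cases hk : k ∈ B <;> simp [hk]
      right_inv := fun u => by
        ext k <;> by_cases hk : k ∈ B <;> simp [hk] }
  have h := Equiv.sum_comp e fun u => f u.1
  simp only [e, Equiv.coe_fn_mk, Fintype.sum_prod_type, sum_const, card_univ, nsmul_eq_mul] at h
  simp only [avg, ← sum_div, h, ← mul_sum]
  have hc : (Fintype.card (κ → Bool) : ℝ) ≠ 0 := by exact_mod_cast Fintype.card_ne_zero
  field_simp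

open Classical in
/-- An event of the coins outside `B`, times an event with small probability on resampling `B`. -/
theorem prob_and_le (B : Finset κ) {A E : (κ → Bool) → Prop} {q : ℝ}
    (hA : ∀ σ τ, A (B.piecewise τ σ) → A σ)
    (hE : ∀ σ, A σ → prob (fun τ => E (B.piecewise τ σ)) ≤ q) :
    prob (fun σ => A σ ∧ E σ) ≤ prob A * q := by
  simp only [prob] at hE ⊢
  rw [avg_resample B, ← avg_mul_const]
  refine avg_mono fun σ => ?_
  by_cases h : A σ
  · simp only [h, if_true, one_mul]
    refine le_trans (avg_mono fun τ => ?_) (hE σ h)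
    by_cases hh : E (B.piecewise τ σ)
    · simp only [hh, if_true]; split_ifs <;> norm_num
    · simp [hh]
  · simp only [h, if_false, zero_mul]
    refine le_of_eq (Eq.trans ?_ (avg_const (α := κ → Bool) 0))
    congr 1
    funext τ
    rw [if_neg fun hh => h (hA σ τ hh.1)]

open Classical in
/-- **Product of conditional bounds.** `ev j` has probability at most `q j` on resampling the
block `blk j`, which the earlier events do not see. -/
theorem prob_forall_le (blk : ℕ → Finset κ) (ev : ℕ → (κ → Bool) → Prop) (q : ℕ → ℝ)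
    (hq : ∀ j, 0 ≤ q j) : ∀ J : Finset ℕ,
    (∀ i ∈ J, ∀ j ∈ J, i < j → ∀ σ τ, ev i ((blk j).piecewise τ σ) → ev i σ) →
    (∀ j ∈ J, ∀ σ, prob (fun τ => ev j ((blk j).piecewise τ σ)) ≤ q j) →
    prob (fun σ => ∀ j ∈ J, ev j σ) ≤ ∏ j ∈ J, q j := by
  intro J
  induction J using Finset.induction_on_max with
  | empty => exact fun _ _ => by simpa using prob_le_one (α := κ → Bool) (fun _ => True)
  | insert a J hlt ih =>
    intro hind hev
    have haJ : a ∉ J := fun h => lt_irrefl a (hlt a h)
    rw [prod_insert haJ, mul_comm]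
    refine le_trans (prob_mono fun σ h => (⟨fun j hj => h j (mem_insert_of_mem hj),
      h a (mem_insert_self a J)⟩ : (∀ j ∈ J, ev j σ) ∧ ev a σ)) ?_
    refine le_trans (prob_and_le (blk a) (A := fun σ => ∀ j ∈ J, ev j σ) (E := ev a) (q := q a)
      (fun σ τ h j hj => hind j (mem_insert_of_mem hj) a (mem_insert_self a J) (hlt j hj) σ τ
        (h j hj))
      fun σ _ => hev a (mem_insert_self a J) σ) ?_
    exact mul_le_mul_of_nonneg_right (ih (fun i hi j hj => hind i (mem_insert_of_mem hi) j
      (mem_insert_of_mem hj)) fun j hj => hev j (mem_insert_of_mem hj)) (hq a)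

open Classical in
/-- **Cauchy-Schwarz** for two events. -/
theorem prob_and_sq_le (A B : α → Prop) : prob (fun a => A a ∧ B a) ^ 2 ≤ prob A * prob B := by
  have h1 : prob (fun a => A a ∧ B a) ≤ prob A := prob_mono fun _ h => h.1
  have h2 : prob (fun a => A a ∧ B a) ≤ prob B := prob_mono fun _ h => h.2
  rw [sq]
  exact mul_le_mul h1 h2 (prob_nonneg _) (prob_nonneg _)

theorem prob_and_le_sqrt (A B : α → Prop) :
    prob (fun a => A a ∧ B a) ≤ Real.sqrt (prob A) * Real.sqrt (prob B) := by
  rw [← Real.sqrt_mul (prob_nonneg _)]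
  exact Real.le_sqrt_of_sq_le (prob_and_sq_le A B)

end Vale.Agent.P078.Local
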