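import Vale.Agent.P078.Local.Flip.Super
import Vale.Agent.P078.Local.Prob.Tail

/-!
# Probabilities over coins as fair means over runs
-/

noncomputable section

namespace Vale.Agent.P078.Local

open Finset

variable {κ : Type*} [Fintype κ] [DecidableEq κ]

/-- `prob` over all coins of an event of the coins at distinct slots is a fair `mean`
(`StmtBridge` of the interface). -/
theorem bridgeStmt : ∀ (n : ℕ) (f : Fin n ↪ κ) (ev : (Fin n → Bool) → Prop),
    prob (fun σ : κ → Bool => ev fun i => σ (f i))
      = mean (fun _ : Bool => (1 / 2 : ℝ)) n fun w => by classical exact if ev w then 1 else 0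
  | 0, f, ev => by
    classical
    rw [mean_zero]
    simp only [prob]
    refine Eq.trans ?_ (avg_const (α := κ → Bool) _)
    congr 1
    funext σ
    exact if_congr (iff_of_eq (congrArg ev (Subsingleton.elim _ _))) rfl rfl
  | n + 1, f, ev => by
    classical
    let g : Fin n ↪ κ := ⟨fun i => f i.succ, fun i j h => Fin.succ_injective n (f.injective h)⟩
    have hk : ∀ i : Fin n, g i ≠ f 0 := fun i h => Fin.succ_ne_zero i (f.injective h)
    have hb : ∀ b : Bool, avg (fun σ : κ → Bool =>
        if ev (fun i => Function.update σ (f 0) b (f i)) then (1 : ℝ) else 0)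
        = mean (fun _ : Bool => (1 / 2 : ℝ)) n fun w => if ev (Fin.cons b w) then 1 else 0 := by
      intro b
      have ih := bridgeStmt n g (fun w => ev (Fin.cons b w))
      simp only [prob] at ih
      refine Eq.trans ?_ ih
      congr 1
      funext σ
      have e : (fun i => Function.update σ (f 0) b (f i))
          = (Fin.cons b fun i => σ (g i) : Fin (n + 1) → Bool) := by
        funext i
        refine Fin.cases ?_ (fun j => ?_) i
        · simp
        · rw [Fin.cons_succ, Function.update_of_ne (show f j.succ ≠ f 0 from hk j)]; rfl
      rw [e]
    simp only [prob]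
    rw [avg_split (f 0), mean_succ, Fintype.sum_bool, ← hb true, ← hb false, ← avg_const_mul,
      ← avg_const_mul, ← avg_add]
    congr 1
    funext σ
    ring

end Vale.Agent.P078.Local
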